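import Mathlib.Logic.Basic

/-
# P032: map of the proof of P032.CommonColours (geometry side), and what could follow

Working notes only, no theorem of its own here.  (The certificates are described in
`P032/H979/LockNotes`.)

## Objects

* `Irr U T`: six open sets `U i` of the complex plane, maximal without two points at distance one, and
  a palette map `T`: near `z` the sets `U i`, `i ∈ T z`, suffice, `T` upper semicontinuous, and so on;
  `Mn U T` / `MinF U T`: no proper subset of `T z` suffices near `z` when `T z` has at least four
  colours.  `pt z u`: the point of the unit circle `S(z)` with the angle `u` times 60 degrees.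
* `DPt T z a b c d`: `T z = {a,b,c,d}` and `S(z)` carries exact arcs of `{a,b}` and of `{c,d}` and no
  other exact pair (two-pair point); `Harm T z A`: four colours, one arc pair `A` (harmless point).
* `WT U T` (`R2/H609/W2`): `Irr`, and two points at distance one with at least four colours each have
  at most TWO common colours.  `WT.le4`: neighbours of a four-coloured point have at most four.

## Contacts of a two-pair point z = {a,b | c,d}, missing colours e, f, in the world WT

All four-coloured points `y` of `S(z)` carry `e, f` and two colours of `z` (`WT.contact_pal`).
* S3: `y = {a,b | e,f}` does not exist (`WT.no_lock`, helper609 / 939).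
* S4: `y = {a,e | b,f}` (or `a,f | b,e`, or the same with `c, d`).
* S4r: `w = {i,j | e,f}`, `i` in `{a,b}`, `j` in `{c,d}`.  (z is then an S4 contact of w.)
* T3: `{a,e | c,f}` and its images: allowed, harmless for the network.
* harmless: `{a,b,e,f}` with the pair `{a,b}` or a crossed pair `{a,e}`; never `{e,f}`
  (`WT.no_harm`); `{a,c,e,f}` only with `{a,e}, {a,f}, {c,e}, {c,f}` (`WT.hmix`, `R2/H939/HW2`).
* two four-coloured points of `S(z)` are never at distance one (`WT.no_tri`, `R2/H939/W2Tri`).

## The steps

1. `NoR T z` (no S4r contact of `z`).  Under `NoR`: words TWO and L3 (`WT.twoR`, `WT.l3R`,
   `R2/H939/TwoL3`), L1 with crossed ends (`RawX.L1x`, `TieX`), so there is a real end with `e`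
   (`WT.e_end`, `RawN`), and exact arcs of `z` end in three-coloured points if the contacts
   `{a,b,e,f}`, `{c,d,e,f}` are harmless (`WT.end3H`, `End3N`; `end3N` for centres without two-pair
   contacts).  No bound for the order anywhere (uses `R2/H833/Rule2Top`).
2. `CertS1w T`: an S4 contact of `z` gives an S4r contact of `z`.  `CertS2 T`: not both.  Both are
   proved by certificates: rings `z` alone (`rdS1a`, `rdS1b`; `R2/H137/S1`), rings `z, y` (`rdR2`) and
   `z, w, y` (`rdS2n`, ten start words and the mirror image; `R2/H659/S2Z`).
3. `WT.noRw`, `WT.end3w`, `WT.okC3w`, `WT.com4W` (`R2/H939/TopW`, `R2/H659/Top4`): no S4, no S4r, all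
   circles of two-pair points are words with T3 contacts; then the network of two-pair points
   (`Net3.no_D3`, `R2/H659/Ok3`) is impossible: `WT.top4w`.
4. Orders five and six: convexity at corners `L3p` from step 3 (`R2/H544/Corner3`), no five-coloured
   point (`no_five_L3`), no six-coloured point with all colours active (`no_six_L3`, tree tables
   `Words6/H926/Tab35`), no silent colour at a clean six-coloured point (`R2/H616/NoSilent`).  Together
   `WT.emptyW` (`R2/H939/Final`).
5. Plane: `resultW7` (`R2/H479/Final7`, relation `WV`, `R2/H951/Rel6`).

## Cheap strengthenings that were not handed in

* As in StoppedArcs (`resultE8`): replace the conclusion by: `z` has order > 4, or `(z, z')` is a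
  limit of pairs `(x, x')` with minimal sets of EXACTLY four indices each, three of them common.
  Proof: world P := four-coloured points at distance one share at most two colours, together with
  `Cl5` this is `WT`; then `rel8_of` of `R2/H939/Final`.
* Not provable in this way (helper951): adding to the relation that `x` is a limit of arcs (world `EW`
  of `R2/H333/WS`): harmless is a property of `T`, not of the sets `U i`.
* Disc form: steps 1, 2 are local (all points within distance 3 of `z`), step 3 needs the local network
  of `SixPairsDiscs` (radius 24) with the words `OkC3` instead of clean circles.

## What remains for the problem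

A LOCK: points at distance one, at least four colours each, three or more common.  See
`P032/H979/LockNotes`.  Facts about locks in Lean: `R2/H609/W2` (namespace `Lock`: `ruleT`,
`third_dpt`), `R2/H939/HLock`, `S2`, `S2Kind`, `S2Flank`.
-/
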